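import Mathlib
import Vale.Agent.P127.Holder.Slice

/-!
Kakeya sets whose segments can be chosen in a Hölder way, with exponent above `(n - 2) / (n - 1)`,
on an open set of directions.
-/

noncomputable section

namespace Vale.Agent.Results.P127.HolderSelection

open MeasureTheory MeasureTheory.Measure Set Function Metric Filter Module
open scoped Topology ENNReal Pointwise

variable {m : ℕ}

/-- The point with the given horizontal part and height one. -/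
def lift (y : EuclideanSpace ℝ (Fin m)) : EuclideanSpace ℝ (Fin (m + 1)) :=
  WithLp.toLp 2 (Fin.snoc (fun i => y i) 1)

theorem lift_zero : lift (0 : (EuclideanSpace ℝ (Fin m))) = EuclideanSpace.single (Fin.last m) 1 := by
  ext i
  refine Fin.lastCases ?_ (fun j => ?_) i
  · simp [lift]
  · simp [lift, Fin.castSucc_ne_last]

theorem norm_lift_sub (y z : (EuclideanSpace ℝ (Fin m))) : ‖lift y - lift z‖ = ‖y - z‖ := by
  simp [EuclideanSpace.norm_eq, lift, Fin.sum_univ_castSucc]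

theorem one_le_norm_lift (y : (EuclideanSpace ℝ (Fin m))) : 1 ≤ ‖lift y‖ := by
  have h := PiLp.norm_apply_le (lift y) (Fin.last m)
  simpa [lift] using h

theorem norm_normalize_sub_le {v w : (EuclideanSpace ℝ (Fin (m + 1)))} (hv : 1 ≤ ‖v‖) (hw : 1 ≤ ‖w‖) :
    ‖‖v‖⁻¹ • v - ‖w‖⁻¹ • w‖ ≤ 2 * ‖v - w‖ := by
  have h1 : ‖v‖⁻¹ • v - ‖w‖⁻¹ • w = ‖v‖⁻¹ • (v - w) + ((‖v‖⁻¹ - ‖w‖⁻¹) : ℝ) • w := by
    rw [smul_sub, sub_smul]; abel
  have hv0 : 0 < ‖v‖ := by linarith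
  have hw0 : 0 < ‖w‖ := by linarith
  rw [h1]
  refine (norm_add_le _ _).trans ?_
  rw [norm_smul, norm_smul, norm_inv, norm_norm, Real.norm_eq_abs]
  have h2 : |‖v‖⁻¹ - ‖w‖⁻¹| * ‖w‖ = ‖v‖⁻¹ * |‖w‖ - ‖v‖| := by
    rw [inv_sub_inv hv0.ne' hw0.ne', abs_div, abs_mul, abs_of_pos hv0, abs_of_pos hw0]
    field_simp
  have h3 : ‖v‖⁻¹ ≤ 1 := inv_le_one_of_one_le₀ hv
  rw [h2]
  nlinarith [norm_nonneg (v - w), abs_norm_sub_norm_le w v, norm_sub_rev v w,
    abs_nonneg (‖w‖ - ‖v‖), inv_nonneg.2 hv0.le]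

theorem volume_ne_zero (hm : 1 ≤ m) (U : Set (EuclideanSpace ℝ (Fin (m + 1)))) (hU : IsOpen U) (hne : ∃ e ∈ U, ‖e‖ = 1)
    (a : (EuclideanSpace ℝ (Fin (m + 1))) → (EuclideanSpace ℝ (Fin (m + 1)))) (α L : ℝ) (hα : 0 < α) (hα1 : α ≤ 1) (hmα : (m : ℝ) * (1 - α) < 1)
    (hL : 0 ≤ L)
    (ha : ∀ e ∈ U, ∀ e' ∈ U, ‖e‖ = 1 → ‖e'‖ = 1 → ‖a e - a e'‖ ≤ L * ‖e - e'‖ ^ α)
    (K : Set (EuclideanSpace ℝ (Fin (m + 1)))) (hK : ∀ e ∈ U, ‖e‖ = 1 → ∀ t ∈ Icc (0 : ℝ) 1, a e + t • e ∈ K) :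
    volume K ≠ 0 := by
  obtain ⟨e₀, he₀U, he₀⟩ := hne
  obtain ⟨ρ, hρ, hρU⟩ := Metric.isOpen_iff.1 hU e₀ he₀U
  set R : (EuclideanSpace ℝ (Fin (m + 1))) ≃ₗᵢ[ℝ] (EuclideanSpace ℝ (Fin (m + 1))) := (ℝ ∙ (EuclideanSpace.single (Fin.last m) (1 : ℝ) - e₀))ᗮ.reflection
  have hR : R (lift (0 : (EuclideanSpace ℝ (Fin m)))) = e₀ := by
    rw [lift_zero]
    exact Submodule.reflection_sub (by rw [PiLp.norm_single, norm_one, he₀])
  have hev : ∀ᶠ r in 𝓝[>] (0 : ℝ), 4 * r < ρ ∧ L * (4 * r) ^ α < 1 / 8 ∧ r < 1 / 2 := by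
    refine eventually_nhdsWithin_of_eventually_nhds
      (Filter.Eventually.and ?_ (Filter.Eventually.and ?_ (Iio_mem_nhds (by norm_num))))
    · exact (continuous_const.mul continuous_id).continuousAt.eventually_lt continuousAt_const
        (by simpa using hρ)
    · exact (continuous_const.mul ((continuous_const.mul continuous_id).rpow_const
        fun _ => Or.inr hα.le)).continuousAt.eventually_lt continuousAt_const
        (by simp [Real.zero_rpow hα.ne'])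
  obtain ⟨r, ⟨hr1, hr2, hr3⟩, hr0⟩ := (hev.and self_mem_nhdsWithin).exists
  replace hr0 : 0 < r := hr0
  set w : (EuclideanSpace ℝ (Fin m)) → (EuclideanSpace ℝ (Fin (m + 1))) := fun y => R (lift (r • y)) with hw
  set u : (EuclideanSpace ℝ (Fin m)) → (EuclideanSpace ℝ (Fin (m + 1))) := fun y => ‖w y‖⁻¹ • w y with hu
  have hwn : ∀ y, ‖w y‖ = ‖lift (r • y)‖ := fun y => R.norm_map _
  have hu1 : ∀ y, ‖u y‖ = 1 := fun y => by
    have h := one_le_norm_lift (r • y)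
    rw [hu, norm_smul, norm_inv, norm_norm, inv_mul_cancel₀]
    rw [hwn]; linarith
  have hw1 : ∀ y, 1 ≤ ‖w y‖ := fun y => by rw [hwn]; exact one_le_norm_lift _
  have hwsub : ∀ y z, ‖w y - w z‖ = r * ‖y - z‖ := fun y z => by
    rw [hw, ← map_sub, R.norm_map, norm_lift_sub, ← smul_sub, norm_smul, Real.norm_of_nonneg hr0.le]
  have husub : ∀ y z, ‖u y - u z‖ ≤ 2 * r * ‖y - z‖ := fun y z =>
    (norm_normalize_sub_le (hw1 y) (hw1 z)).trans_eq (by rw [hwsub]; ring)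
  have hu0 : u 0 = e₀ := by
    simp only [hu, hw, smul_zero, hR, he₀, inv_one, one_smul]
  have huU : ∀ y ∈ closedBall (0 : (EuclideanSpace ℝ (Fin m))) 2, u y ∈ U := fun y hy => by
    rw [mem_closedBall, dist_zero_right] at hy
    refine hρU ?_
    rw [mem_ball, dist_eq_norm, ← hu0]
    refine (husub y 0).trans_lt ?_
    rw [sub_zero]
    nlinarith
  set b : (EuclideanSpace ℝ (Fin m)) → (EuclideanSpace ℝ (Fin (m + 1))) := fun y => R.symm (a (u y)) with hb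
  have hbsub : ∀ y ∈ closedBall (0 : (EuclideanSpace ℝ (Fin m))) 2, ∀ z ∈ closedBall (0 : (EuclideanSpace ℝ (Fin m))) 2,
      ‖b y - b z‖ ≤ L * (2 * r) ^ α * ‖y - z‖ ^ α := fun y hy z hz => by
    rw [hb, ← map_sub, R.symm.norm_map, mul_assoc, ← Real.mul_rpow (by positivity) (norm_nonneg _)]
    refine (ha _ (huU y hy) _ (huU z hz) (hu1 y) (hu1 z)).trans ?_
    gcongr
    exact husub y z
  set β : (EuclideanSpace ℝ (Fin m)) → ℝ := fun y => b y (Fin.last m) with hβ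
  have hβsub : ∀ y ∈ closedBall (0 : (EuclideanSpace ℝ (Fin m))) 2, ∀ z ∈ closedBall (0 : (EuclideanSpace ℝ (Fin m))) 2,
      |β y - β z| ≤ L * (2 * r) ^ α * ‖y - z‖ ^ α := fun y hy z hz =>
    (by simpa [hβ, Real.norm_eq_abs] using PiLp.norm_apply_le (b y - b z) (Fin.last m) :
      |β y - β z| ≤ ‖b y - b z‖).trans (hbsub y hy z hz)
  set β₀ := β 0 with hβ₀
  have hβnear : ∀ y ∈ closedBall (0 : (EuclideanSpace ℝ (Fin m))) 2, |β y - β₀| ≤ 1 / 8 := fun y hy => by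
    refine (hβsub y hy 0 (mem_closedBall_self (by norm_num))).trans (le_trans ?_ hr2.le)
    rw [sub_zero, mul_assoc, ← Real.mul_rpow (by positivity) (norm_nonneg _)]
    rw [mem_closedBall, dist_zero_right] at hy
    refine mul_le_mul_of_nonneg_left ?_ hL
    exact Real.rpow_le_rpow (by positivity) (by nlinarith) hα.le
  set P : (EuclideanSpace ℝ (Fin (m + 1))) → (EuclideanSpace ℝ (Fin m)) := fun z => WithLp.toLp 2 fun i => z i.castSucc with hP
  have hPle : ∀ z, ‖P z‖ ≤ ‖z‖ := fun z => by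
    simp only [hP, EuclideanSpace.norm_eq, Fin.sum_univ_castSucc]
    exact Real.sqrt_le_sqrt (le_add_of_nonneg_right (by positivity))
  have hPsub : ∀ z z', P (z - z') = P z - P z' := fun z z' => rfl
  set g : (EuclideanSpace ℝ (Fin m)) → (EuclideanSpace ℝ (Fin m)) := fun y => r⁻¹ • P (b y) - β y • y with hg
  have hholder : Vale.Agent.P127.Holder.HolderBound g
      (r⁻¹ * (L * (2 * r) ^ α) + (|β₀| + 1 / 8) * 4 + L * (2 * r) ^ α * 2) α := by
    intro y hy z hz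
    have hd0 : 0 ≤ ‖y - z‖ := norm_nonneg _
    have hd : ‖y - z‖ ≤ 4 * ‖y - z‖ ^ α := by
      rcases le_or_gt ‖y - z‖ 1 with h | h
      · have := Real.self_le_rpow_of_le_one hd0 h hα1
        linarith [Real.rpow_nonneg hd0 α]
      · have h1 : 1 ≤ ‖y - z‖ ^ α := Real.one_le_rpow h.le hα.le
        rw [mem_closedBall, dist_zero_right] at hy hz
        linarith [norm_sub_le y z]
    have heq : g y - g z =
        r⁻¹ • P (b y - b z) - (β y • (y - z) + (β y - β z) • z) := by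
      simp only [hg, hPsub, smul_sub, sub_smul]
      abel
    have hβy : |β y| ≤ |β₀| + 1 / 8 := by
      have h := hβnear y hy
      linarith [abs_sub_abs_le_abs_sub (β y) β₀]
    have hz2 : ‖z‖ ≤ 2 := by simpa using hz
    rw [heq]
    refine (norm_sub_le _ _).trans ?_
    rw [norm_smul, norm_inv, Real.norm_of_nonneg hr0.le]
    have h1 : r⁻¹ * ‖P (b y - b z)‖ ≤ r⁻¹ * (L * (2 * r) ^ α * ‖y - z‖ ^ α) :=
      mul_le_mul_of_nonneg_left ((hPle _).trans (hbsub y hy z hz)) (by positivity)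
    have h2 : ‖β y • (y - z)‖ ≤ (|β₀| + 1 / 8) * (4 * ‖y - z‖ ^ α) := by
      rw [norm_smul, Real.norm_eq_abs]
      exact mul_le_mul hβy hd hd0 (by positivity)
    have h3 : ‖(β y - β z) • z‖ ≤ L * (2 * r) ^ α * ‖y - z‖ ^ α * 2 := by
      rw [norm_smul, Real.norm_eq_abs]
      exact mul_le_mul (hβsub y hy z hz) hz2 (norm_nonneg _) (by positivity)
    calc _ ≤ r⁻¹ * ‖P (b y - b z)‖ + (‖β y • (y - z)‖ + ‖(β y - β z) • z‖) :=
          add_le_add le_rfl (norm_add_le _ _)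
      _ ≤ _ := add_le_add h1 (add_le_add h2 h3)
      _ = _ := by ring
  have hfin := Vale.Agent.P127.Holder.finite_null_slices hm hholder hα hα1 (by positivity) hmα
  set S : ℝ → Set (EuclideanSpace ℝ (Fin m)) := fun h => (fun y => g y + h • y) '' closedBall (0 : (EuclideanSpace ℝ (Fin m))) 1 with hS
  intro hK0
  set Θ : ℝ × (Fin m → ℝ) → (EuclideanSpace ℝ (Fin (m + 1))) := fun p =>
    R (WithLp.toLp 2 ((MeasurableEquiv.piFinSuccAbove (fun _ => ℝ) (Fin.last m)).symm p)) with hΘ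
  have hmp : MeasurePreserving Θ (volume.prod volume) volume :=
    R.measurePreserving.comp ((PiLp.volume_preserving_toLp (Fin (m + 1))).comp
      (volume_preserving_piFinSuccAbove (fun _ => ℝ) (Fin.last m)).symm)
  have hnull : (volume.prod volume) (Θ ⁻¹' K) = 0 := hmp.quasiMeasurePreserving.preimage_null hK0
  have hslice : ∀ᵐ h : ℝ, ∀ᵐ y : Fin m → ℝ, (h, y) ∉ Θ ⁻¹' K :=
    ae_ae_of_ae_prod (measure_eq_zero_iff_ae_notMem.1 hnull)
  have hmem : ∀ h ∈ Icc (β₀ + 1 / 8) (β₀ + 3 / 8), ∀ y ∈ closedBall (0 : (EuclideanSpace ℝ (Fin m))) 1,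
      (h, WithLp.ofLp (r • (g y + h • y))) ∈ Θ ⁻¹' K := by
    intro h hh y hy
    have hy2 : y ∈ closedBall (0 : (EuclideanSpace ℝ (Fin m))) 2 := closedBall_subset_closedBall one_le_two hy
    have hn : ‖lift (r • y)‖ ≤ 2 := by
      have h1 := norm_le_norm_add_norm_sub' (lift (r • y)) (lift (0 : (EuclideanSpace ℝ (Fin m))))
      have h2 := norm_sub_le_norm_sub_add_norm_sub (lift (r • y)) (lift (0 : (EuclideanSpace ℝ (Fin m)))) 0
      simp only [sub_zero, norm_lift_sub, norm_smul, Real.norm_of_nonneg hr0.le] at h2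
      rw [lift_zero, PiLp.norm_single, norm_one] at h2
      rw [mem_closedBall, dist_zero_right] at hy
      nlinarith
    have hb8 := abs_le.1 (hβnear y hy2)
    have ht : (h - β y) * ‖w y‖ ∈ Icc (0 : ℝ) 1 := by
      rw [hwn]
      constructor <;> nlinarith [hh.1, hh.2, one_le_norm_lift (r • y)]
    have hpt := hK _ (huU y hy2) (hu1 y) _ ht
    have hne0 : ‖w y‖ ≠ 0 := (lt_of_lt_of_le one_pos (hw1 y)).ne'
    have h1 : a (u y) + ((h - β y) * ‖w y‖) • u y = R (b y + (h - β y) • lift (r • y)) := by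
      rw [map_add, map_smul, hb, R.apply_symm_apply, hu, smul_smul, mul_assoc,
        mul_inv_cancel₀ hne0, mul_one]
    rw [h1] at hpt
    show Θ _ ∈ K
    rw [hΘ]
    refine (congrArg (fun v => R v ∈ K) ?_).mpr hpt
    ext i
    refine Fin.lastCases ?_ (fun j => ?_) i
    · simp [MeasurableEquiv.piFinSuccAbove, lift, hβ]
    · simp [MeasurableEquiv.piFinSuccAbove, lift, hg, hP, mul_sub,
        ← mul_assoc, hr0.ne']
      ring
  have hbad : ∀ᵐ h : ℝ, h ∈ Icc (β₀ + 1 / 8) (β₀ + 3 / 8) → volume (S h) = 0 := by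
    filter_upwards [hslice] with h hh hI
    have h1 : volume {y : Fin m → ℝ | (h, y) ∈ Θ ⁻¹' K} = 0 := by
      rw [ae_iff] at hh
      simpa using hh
    have h2 : volume (r • S h) = 0 := by
      refine measure_mono_null ?_
        ((PiLp.volume_preserving_ofLp (Fin m)).quasiMeasurePreserving.preimage_null h1)
      rintro z ⟨-, ⟨y, hy, rfl⟩, rfl⟩
      exact hmem h hI y hy
    rw [addHaar_smul, mul_eq_zero, ENNReal.ofReal_eq_zero, abs_nonpos_iff] at h2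
    exact h2.resolve_left (pow_ne_zero _ hr0.ne')
  have hfin' : ∀ᵐ h : ℝ, volume (S h) ≠ 0 :=
    measure_eq_zero_iff_ae_notMem.1 (hfin.measure_zero volume)
  have hIcc : volume (Icc (β₀ + 1 / 8) (β₀ + 3 / 8)) = 0 := by
    rw [measure_eq_zero_iff_ae_notMem]
    filter_upwards [hbad, hfin'] with h h1 h2 hI using h2 (h1 hI)
  rw [Real.volume_Icc, ENNReal.ofReal_eq_zero] at hIcc
  linarith

theorem dimH_eq_of_volume_ne_zero {K : Set (EuclideanSpace ℝ (Fin (m + 1)))} (hvol : volume K ≠ 0) : dimH K = (m + 1 : ℕ) := by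
  refine le_antisymm ?_ ?_
  · calc dimH K ≤ dimH (univ : Set (EuclideanSpace ℝ (Fin (m + 1)))) := dimH_mono (subset_univ K)
      _ = (m + 1 : ℕ) := by rw [Real.dimH_univ_eq_finrank, finrank_euclideanSpace_fin]
  · have h : μH[(finrank ℝ (EuclideanSpace ℝ (Fin (m + 1))) : ℝ)] K ≠ 0 := fun h0 =>
      hvol (absolutelyContinuous_isAddHaarMeasure volume _ h0)
    simp only [finrank_euclideanSpace_fin] at h
    rw [← ENNReal.coe_natCast]
    exact le_dimH_of_hausdorffMeasure_ne_zero (by simpa using h)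

/-- Projecting to the span of `k + 1` coordinates. -/
theorem le_dimH {k : ℕ} (hk : 1 ≤ k) (hkm : k ≤ m) (U : Set (EuclideanSpace ℝ (Fin (m + 1)))) (hU : IsOpen U)
    (hne : ∃ e ∈ U, ‖e‖ = 1) (a : (EuclideanSpace ℝ (Fin (m + 1))) → (EuclideanSpace ℝ (Fin (m + 1)))) (α L : ℝ) (hα : 0 < α) (hα1 : α ≤ 1)
    (hkα : (k : ℝ) * (1 - α) < 1) (hL : 0 ≤ L)
    (ha : ∀ e ∈ U, ∀ e' ∈ U, ‖e‖ = 1 → ‖e'‖ = 1 → ‖a e - a e'‖ ≤ L * ‖e - e'‖ ^ α)
    (K : Set (EuclideanSpace ℝ (Fin (m + 1)))) (hK : ∀ e ∈ U, ‖e‖ = 1 → ∀ t ∈ Icc (0 : ℝ) 1, a e + t • e ∈ K) :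
    ((k + 1 : ℕ) : ℝ≥0∞) ≤ dimH K := by
  obtain ⟨e₀, he₀U, he₀⟩ := hne
  set φ : Fin (k + 1) → Fin (m + 1) := Fin.castLE (by omega) with hφ
  have hφi : Injective φ := Fin.castLE_injective _
  set R : (EuclideanSpace ℝ (Fin (m + 1))) ≃ₗᵢ[ℝ] (EuclideanSpace ℝ (Fin (m + 1))) := (ℝ ∙ (EuclideanSpace.single (φ 0) (1 : ℝ) - e₀))ᗮ.reflection
  have hR : R (EuclideanSpace.single (φ 0) (1 : ℝ)) = e₀ :=
    Submodule.reflection_sub (by rw [PiLp.norm_single, norm_one, he₀])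
  set J : EuclideanSpace ℝ (Fin (k + 1)) → (EuclideanSpace ℝ (Fin (m + 1))) := fun y =>
    R (WithLp.toLp 2 (Function.extend φ (fun i => y i) 0)) with hJ
  set P : (EuclideanSpace ℝ (Fin (m + 1))) → EuclideanSpace ℝ (Fin (k + 1)) := fun z =>
    WithLp.toLp 2 fun i => R.symm z (φ i) with hP
  have hext : ∀ (y : EuclideanSpace ℝ (Fin (k + 1))) i,
      Function.extend φ (fun i => y i) 0 (φ i) = y i := fun y i => hφi.extend_apply _ _ i
  have hext0 : ∀ (y : EuclideanSpace ℝ (Fin (k + 1))), ∀ j ∉ range φ,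
      Function.extend φ (fun i => y i) 0 j = 0 := fun y j hj =>
    Function.extend_apply' _ _ j hj
  have hJsub : ∀ y z, ‖J y - J z‖ = ‖y - z‖ := fun y z => by
    rw [hJ, ← map_sub, R.norm_map, EuclideanSpace.norm_eq, EuclideanSpace.norm_eq]
    congr 1
    refine (Fintype.sum_of_injective φ hφi _ _ (fun j hj => ?_) fun i => ?_).symm
    · simp [hext0 y j hj, hext0 z j hj]
    · simp [hext y i, hext z i]
  have hJ0 : J 0 = 0 := by
    have h0 : Function.extend φ (fun i => (0 : EuclideanSpace ℝ (Fin (k + 1))) i) 0 = 0 := by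
      funext j
      by_cases hj : j ∈ range φ
      · obtain ⟨i, rfl⟩ := hj; rw [hext]; simp
      · rw [hext0 _ j hj]; rfl
    simp only [hJ, h0, WithLp.toLp_zero, map_zero]
  have hJn : ∀ y, ‖J y‖ = ‖y‖ := fun y => by simpa [hJ0] using hJsub y 0
  have hJe : J (EuclideanSpace.single 0 1) = e₀ := by
    refine (congrArg R ?_).trans hR
    ext j
    by_cases hj : j ∈ range φ
    · obtain ⟨i, rfl⟩ := hj
      simp [hφi.extend_apply, hφi.eq_iff]
    · have hne : j ≠ φ 0 := fun h => hj ⟨0, h.symm⟩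
      simp [Function.extend_apply' _ _ j hj, hne]
  have hPsub : ∀ z z', ‖P z - P z'‖ ≤ ‖z - z'‖ := fun z z' => by
    rw [← R.symm.norm_map (z - z'), map_sub, EuclideanSpace.norm_eq, EuclideanSpace.norm_eq]
    refine Real.sqrt_le_sqrt ?_
    simp only [hP, ← WithLp.toLp_sub, Pi.sub_apply]
    exact (Finset.sum_map Finset.univ ⟨φ, hφi⟩
      fun j => ‖R.symm z j - R.symm z' j‖ ^ 2).ge.trans
      (Finset.sum_le_sum_of_subset_of_nonneg (Finset.subset_univ _) fun j _ _ => sq_nonneg _)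
  have hPlin : ∀ z (t : ℝ) y, P (z + t • J y) = P z + t • y := fun z t y => by
    ext i
    simp [hP, hJ, hext]
  have hvol : volume (P '' K) ≠ 0 := volume_ne_zero hk (J ⁻¹' U)
    (hU.preimage (Isometry.of_dist_eq fun y z => by simp only [dist_eq_norm, hJsub]).continuous)
    ⟨EuclideanSpace.single 0 1, by show J _ ∈ U; rw [hJe]; exact he₀U,
      by rw [PiLp.norm_single, norm_one]⟩
    (fun e => P (a (J e))) α L hα hα1 hkα hL
    (fun e he e' he' h h' => by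
      refine (hPsub _ _).trans ?_
      rw [← hJsub e e']
      exact ha _ he _ he' (by rw [hJn, h]) (by rw [hJn, h']))
    (P '' K) fun e he h t ht => ⟨_, hK (J e) he (by rw [hJn, h]) t ht, hPlin _ t e⟩
  rw [← dimH_eq_of_volume_ne_zero hvol]
  exact (LipschitzWith.of_dist_le_mul (K := 1) fun z z' => by
    simpa [dist_eq_norm] using hPsub z z').dimH_image_le K

theorem result {m : ℕ} (U : Set (EuclideanSpace ℝ (Fin (m + 1)))) (hU : IsOpen U)
    (hne : ∃ e ∈ U, ‖e‖ = 1) (a : EuclideanSpace ℝ (Fin (m + 1)) → EuclideanSpace ℝ (Fin (m + 1)))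
    (α L : ℝ) (hα : 0 < α) (hα1 : α ≤ 1)
    (ha : ∀ e ∈ U, ∀ e' ∈ U, ‖e‖ = 1 → ‖e'‖ = 1 → ‖a e - a e'‖ ≤ L * ‖e - e'‖ ^ α)
    (K : Set (EuclideanSpace ℝ (Fin (m + 1))))
    (hK : ∀ e ∈ U, ‖e‖ = 1 → ∀ t ∈ Icc (0 : ℝ) 1, a e + t • e ∈ K) :
    ((1 ≤ m ∧ (m : ℝ) * (1 - α) < 1) → volume K ≠ 0 ∧ dimH K = (m + 1 : ℕ)) ∧
      ∀ k : ℕ, 1 ≤ k → k ≤ m → (k : ℝ) * (1 - α) < 1 → ((k + 1 : ℕ) : ℝ≥0∞) ≤ dimH K := by
  have ha' : ∀ e ∈ U, ∀ e' ∈ U, ‖e‖ = 1 → ‖e'‖ = 1 → ‖a e - a e'‖ ≤ max L 0 * ‖e - e'‖ ^ α :=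
    fun e he e' he' h h' => (ha e he e' he' h h').trans
      (mul_le_mul_of_nonneg_right (le_max_left _ _) (Real.rpow_nonneg (norm_nonneg _) _))
  refine ⟨fun ⟨hm, hmα⟩ => ?_, fun k hk hkm hkα =>
    le_dimH hk hkm U hU hne a α _ hα hα1 hkα (le_max_right _ _) ha' K hK⟩
  have hvol := volume_ne_zero hm U hU hne a α _ hα hα1 hmα (le_max_right _ _) ha' K hK
  exact ⟨hvol, dimH_eq_of_volume_ne_zero hvol⟩

end Vale.Agent.Results.P127.HolderSelection
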