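import Mathlib
import Vale.Agent.P127.Shift

/-!
Kakeya sets whose segments can be chosen in a Lipschitz way on many directions.
-/

namespace Vale.Agent.Results.P127.LipschitzSelection

open MeasureTheory MeasureTheory.Measure Set Module
open scoped NNReal ENNReal

theorem result {n : ℕ} (S : Set (EuclideanSpace ℝ (Fin n)))
    (hpos : volume {x : EuclideanSpace ℝ (Fin n) | x ≠ 0 ∧ ‖x‖ ≤ 1 ∧ ‖x‖⁻¹ • x ∈ S} ≠ 0)
    (a : EuclideanSpace ℝ (Fin n) → EuclideanSpace ℝ (Fin n)) (L : ℝ≥0)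
    (ha : LipschitzOnWith L a S) (K : Set (EuclideanSpace ℝ (Fin n)))
    (hK : ∀ e ∈ S, ‖e‖ = 1 → ∀ t ∈ Icc (0 : ℝ) 1, a e + t • e ∈ K) :
    volume K ≠ 0 ∧ dimH K = n := by
  set c : ℕ → ℝ := fun j => ((j : ℝ) + 1)⁻¹ with hc
  have hcinj : Function.Injective c := fun i j h => by
    simpa [hc] using h
  have hc01 : ∀ j, c j ∈ Icc (0 : ℝ) 1 := fun j =>
    ⟨by positivity, inv_le_one_of_one_le₀ (by linarith [Nat.cast_nonneg (α := ℝ) j])⟩
  obtain ⟨i, hi⟩ : ∃ i, volume {x : EuclideanSpace ℝ (Fin n) |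
      c i ≤ ‖x‖ ∧ ‖x‖ ≤ 1 ∧ ‖x‖⁻¹ • x ∈ S} ≠ 0 := by
    by_contra! h
    refine hpos (measure_mono_null (fun x hx => ?_) (measure_iUnion_null h))
    obtain ⟨i, hi⟩ := exists_nat_one_div_lt (norm_pos_iff.2 hx.1)
    exact mem_iUnion.2 ⟨i, by rw [one_div] at hi; exact hi.le, hx.2⟩
  obtain ⟨g, hg, hgeq⟩ := (ha.comp ((Vale.Agent.P127.lipschitzOnWith_normalize
    (E := EuclideanSpace ℝ (Fin n)) (ε := c i) (by positivity)).mono
    (show {x : EuclideanSpace ℝ (Fin n) | c i ≤ ‖x‖ ∧ ‖x‖ ≤ 1 ∧ ‖x‖⁻¹ • x ∈ S} ⊆ _ from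
      fun x hx => hx.1)) fun x hx => hx.2.2).extend_finite_dimension
  obtain ⟨j, hj⟩ := Vale.Agent.P127.exists_shift volume hg hcinj hi
  have hvol : volume K ≠ 0 := by
    refine fun h => hj (measure_mono_null ?_ h)
    rintro _ ⟨x, ⟨hx1, hx2, hx3⟩, rfl⟩
    have hx0 : ‖x‖ ≠ 0 := ((show (0 : ℝ) < c i by positivity).trans_le hx1).ne'
    have h1 : g x = a (‖x‖⁻¹ • x) := (hgeq ⟨hx1, hx2, hx3⟩).symm
    have h2 : c j • x = (c j * ‖x‖) • (‖x‖⁻¹ • x) := by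
      rw [smul_smul, mul_assoc, mul_inv_cancel₀ hx0, mul_one]
    show g x + c j • x ∈ K
    rw [h1, h2]
    exact hK _ hx3 (by rw [norm_smul, norm_inv, norm_norm, inv_mul_cancel₀ hx0]) _
      ⟨mul_nonneg (hc01 j).1 (norm_nonneg x), mul_le_one₀ (hc01 j).2 (norm_nonneg x) hx2⟩
  refine ⟨hvol, le_antisymm ?_ ?_⟩
  · calc dimH K ≤ dimH (univ : Set (EuclideanSpace ℝ (Fin n))) := dimH_mono (subset_univ K)
      _ = n := by rw [Real.dimH_univ_eq_finrank, finrank_euclideanSpace_fin]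
  · have h : μH[(finrank ℝ (EuclideanSpace ℝ (Fin n)) : ℝ)] K ≠ 0 := fun h0 =>
      hvol (absolutelyContinuous_isAddHaarMeasure volume _ h0)
    simp only [finrank_euclideanSpace_fin] at h
    rw [← ENNReal.coe_natCast]
    exact le_dimH_of_hausdorffMeasure_ne_zero (by simpa using h)

end Vale.Agent.Results.P127.LipschitzSelection
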